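import Vale.Agent.P096.III.Reduce.Main
import Vale.Agent.P096.III.Std
import Vale.Agent.P096.III.Sites.Main
import Vale.Agent.P096.III.Pin.Main
import Vale.Agent.P096.III.Encode.Main
import Vale.Agent.P096.III.Word.StageMain
import Vale.Agent.P096.III.Pinned.Main
import Vale.Agent.P096.III.Frame.Flat

namespace Vale.Agent.Results.P096.StrongKadisonKastler

open Vale.Agent.P096

universe u

/-- The strong Kadison-Kastler conjecture. -/
theorem result :
    ∀ ε : ℝ, 0 < ε → ∃ δ : ℝ, 0 < δ ∧
      ∀ (H : Type u) [NormedAddCommGroup H] [InnerProductSpace ℂ H] [CompleteSpace H]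
        (M N : VonNeumannAlgebra H), Full.kkDist M N < δ → Full.ConjugateNearOne ε M N :=
  III.Reduce.strongKK_of_std (III.Std.stmtStd_of III.Frame.stmtFrame III.Pin.stmtPin
    III.Sites.stmtSites (III.Pinned.stmtPinned_of III.Word.stmtStage III.Encode.stmtEncode))

end Vale.Agent.Results.P096.StrongKadisonKastler
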